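import Vale.Agent.P352W.Ap.Ps1
import Vale.Agent.P352W.Fk.Pw
import Vale.Agent.P352W.Fk.Cr

/-!
# P352W: the rows `ps` and `fil` of the free field (helper88)
-/

set_option autoImplicit false

namespace Vale.Agent.P352W.Ap

open Vale.Agent.P352.GF Vale.Agent.P352W.Fk Vale.Agent.P352W.Cn

/-- the field descends to the domain -/
theorem ph_mk (f : Fn) (ψ : Wf) (hf : IsTest f) (w : Wd ψ) :
    Ph f (Fk.mk ψ) = Fk.mk (ph (ft f) ψ) := by
  obtain ⟨w', e⟩ := rep_spec (Fk.mk ψ)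
  rw [mk_val w] at e
  have u := w'.add (w.smul (-1))
  obtain ⟨C, hC⟩ := ph_bd (hs_ft hf)
  obtain ⟨n, l⟩ := u.le
  have b := hC n _ (nice_wd u).1 (nice_wd u).memLp l
  rw [ph_add (hs_ft hf) (nice_wd w') (nice_wd (w.smul _)), ph_smul,
    toL_add (nice_wd (w'.ph hf)) (nice_wd ((w.ph hf).smul _)), toL_smul _ (nice_wd (w.ph hf)),
    toL_add (nice_wd w') (nice_wd (w.smul _)), toL_smul _ (nice_wd w), e, neg_one_smul,
    neg_one_smul, add_neg_cancel, norm_zero, mul_zero, norm_le_zero_iff, add_neg_eq_zero] at b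
  refine Subtype.ext ?_
  rw [Ph, op, mk_val (w'.ph hf), mk_val (w.ph hf), b]

/-- **the row `ps`** -/
theorem ps (m n : Ix) : PS Ph (Fk.Tm m n) :=
  (hy_of ph_mk fun _ _ _ => ph_ph).ps m n

theorem ex_mk (v : D) : ∃ ψ, Wd ψ ∧ Fk.mk ψ = v :=
  ⟨_, (rep_spec v).1, Subtype.ext ((mk_val (rep_spec v).1).trans (rep_spec v).2)⟩

/-- **the row `fil`** -/
theorem fil : ∃ P : ℕ → D → Prop, (∀ v, ∃ n, P n v) ∧ ∀ g, IsTest g →
    (∀ n v, P n v → P (n + 1) (Ph g v)) ∧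
      ∃ C : ℝ, ∀ n v, P n v → ‖Ph g v‖ ≤ C * √((n : ℝ) + 1) * ‖v‖ :=
  fil_of (fun _ => hs_ft) (fun _ => nice_wd) (fun _ => Nice.memLp) ex_mk ph_mk

end Vale.Agent.P352W.Ap
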