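import Vale.Agent.P352W.Gl.Ps0

/-!
# P352W: point splitting of kernels implies `PS` (helper88)

`Q κ` is the normal ordered quadratic operator with kernel `κ`, from `D` to a bigger space `E`.
-/

set_option autoImplicit false

open Filter Topology
open scoped ComplexConjugate

namespace Vale.Agent.P352W.Ap

open P352 GF H246

noncomputable section

/-- kernels -/
abbrev Kn := V → V → ℂ

/-- the kernel of the adjoint -/
def st (κ : Kn) : Kn := fun p q => conj (κ (-q) (-p))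

theorem st_add (κ κ' : Kn) : st (κ + κ') = st κ + st κ' := by
  funext p q; simp [st]

theorem st_smul (c : ℂ) (κ : Kn) : st (c • κ) = conj c • st κ := by
  funext p q; simp [st]

theorem st_zero : st 0 = 0 := by
  funext p q; simp [st]

/-- kernels of finite rank, localised in `O` -/
def FR (F : Fn → V → ℂ) (O : Set V) : Submodule ℂ Kn :=
  Submodule.span ℂ {κ | ∃ g h, In O g ∧ In O h ∧ κ = fun p q => F g p * F h q}

/-- limits of kernels of finite rank -/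
def AP (F : Fn → V → ℂ) (wt : ℕ → V → V → ℝ) (O : Set V) (κ : Kn) : Prop :=
  ∀ (N : ℕ) (ε : ℝ), 0 < ε → ∃ κ' ∈ FR F O, ∀ p q, ‖κ p q - κ' p q‖ ≤ ε * wt N p q

variable {F : Fn → V → ℂ} {wt : ℕ → V → V → ℝ} {O : Set V}

theorem AP.add {κ κ' : Kn} (h : AP F wt O κ) (h' : AP F wt O κ') : AP F wt O (κ + κ') := by
  intro N ε hε
  obtain ⟨a, ha, e⟩ := h N _ (half_pos hε)
  obtain ⟨b, hb, e'⟩ := h' N _ (half_pos hε)
  refine ⟨a + b, add_mem ha hb, fun p q => ?_⟩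
  have : (κ + κ') p q - (a + b) p q = (κ p q - a p q) + (κ' p q - b p q) := by
    simp only [Pi.add_apply]; ring
  rw [this]
  refine (norm_add_le _ _).trans ?_
  linarith [e p q, e' p q]

theorem AP.smul {κ : Kn} (c : ℂ) (h : AP F wt O κ) :
    AP F wt O (c • κ) := by
  intro N ε hε
  have h1 : 0 < ‖c‖ + 1 := by positivity
  obtain ⟨a, ha, e⟩ := h N _ (div_pos hε h1)
  refine ⟨c • a, Submodule.smul_mem _ _ ha, fun p q => ?_⟩
  have : (c • κ) p q - (c • a) p q = c * (κ p q - a p q) := by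
    simp only [Pi.smul_apply, smul_eq_mul]; ring
  rw [this, norm_mul]
  calc ‖c‖ * ‖κ p q - a p q‖ ≤ (‖c‖ + 1) * (ε / (‖c‖ + 1) * wt N p q) :=
        mul_le_mul (by linarith) (e p q) (norm_nonneg _) h1.le
    _ = ε * wt N p q := by field_simp

theorem AP.zero (hw : ∀ N p q, 0 ≤ wt N p q) : AP F wt O 0 := fun N ε hε =>
  ⟨0, zero_mem _, fun p q => by simpa using mul_nonneg hε.le (hw N p q)⟩

theorem AP.sum {ι : Type*} (hw : ∀ N p q, 0 ≤ wt N p q) (s : Finset ι) {κ : ι → Kn}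
    (h : ∀ i ∈ s, AP F wt O (κ i)) : AP F wt O (∑ i ∈ s, κ i) :=
  Finset.sum_induction κ (AP F wt O) (fun _ _ => AP.add) (AP.zero hw) h

/-- the form with finite sums -/
theorem AP.of_sum {κ : Kn} (h : ∀ (N : ℕ) (ε : ℝ), 0 < ε → ∃ (ι : Type) (s : Finset ι) (c : ι → ℂ)
    (g k : ι → Fn), (∀ i ∈ s, In O (g i) ∧ In O (k i)) ∧
      ∀ p q, ‖κ p q - ∑ i ∈ s, c i * (F (g i) p * F (k i) q)‖ ≤ ε * wt N p q) : AP F wt O κ := by
  intro N ε hε
  obtain ⟨ι, s, c, g, k, hi, e⟩ := h N ε hε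
  refine ⟨∑ i ∈ s, c i • fun p q => F (g i) p * F (k i) q, Submodule.sum_mem _ fun i h =>
    Submodule.smul_mem _ _ (Submodule.subset_span ⟨_, _, (hi i h).1, (hi i h).2, rfl⟩),
    fun p q => ?_⟩
  simpa [Finset.sum_apply] using e p q

variable {D : Type*} [NormedAddCommGroup D] [InnerProductSpace ℂ D]
  {E : Type*} [SeminormedAddCommGroup E] [Module ℂ E]

/-- the Wick calculus -/
structure Wk (F : Fn → V → ℂ) (wt : ℕ → V → V → ℝ) (ι : D →ₗ[ℂ] E) (φ : Fld D)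
    (Tm : Submodule ℂ Kn) (Q : Kn → D → E) (cs : Fn → Fn → ℂ) : Prop where
  iso : ∀ v, ‖ι v‖ = ‖v‖
  fb : ∀ g p, GF.IsTest g → F (bar g) p = conj (F g (-p))
  tb : ∀ g, GF.IsTest g → GF.IsTest (bar g)
  cb : ∀ g h, GF.IsTest g → GF.IsTest h → cs (bar h) (bar g) = conj (cs g h)
  anti : ∀ N N' p q, N ≤ N' → wt N' p q ≤ wt N p q
  symm : ∀ N p q, wt N (-q) (-p) = wt N p q
  add : ∀ κ ∈ Tm, ∀ κ' ∈ Tm, ∀ v, Q (κ + κ') v = Q κ v + Q κ' v
  smul : ∀ (c : ℂ), ∀ κ ∈ Tm, ∀ v, Q (c • κ) v = c • Q κ v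
  ten : ∀ g h, GF.IsTest g → GF.IsTest h → (fun p q => F g p * F h q) ∈ Tm
  mul : ∀ g h v, GF.IsTest g → GF.IsTest h →
    ι (φ g (φ h v)) = Q (fun p q => F g p * F h q) v + cs g h • ι v
  bd : ∀ v, ∃ (N : ℕ) (C : ℝ), ∀ κ ∈ Tm, ∀ ε : ℝ, 0 < ε → (∀ p q, ‖κ p q‖ ≤ ε * wt N p q) →
    ‖Q κ v‖ ≤ C * ε

variable {ι : D →ₗ[ℂ] E} {φ : Fld D} {Tm : Submodule ℂ Kn} {Q : Kn → D → E} {cs : Fn → Fn → ℂ}

theorem Wk.fr (W : Wk F wt ι φ Tm Q cs) {S : D →ₗ⋆[ℂ] D →ₗ[ℂ] ℂ}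
    (hS : ∀ g w v, In O g → S (φ (bar g) w) v = S w (φ g v)) (w v : D) {κ : Kn}
    (h : κ ∈ FR F O) : κ ∈ Tm ∧ st κ ∈ Tm ∧
      ∃ x y : D, ι x = Q κ v ∧ ι y = Q (st κ) w ∧ S y v = S w x := by
  induction h using Submodule.span_induction with
  | mem κ h =>
    obtain ⟨g, k, hg, hk, rfl⟩ := h
    have e : st (fun p q => F g p * F k q) = fun p q => F (bar k) p * F (bar g) q := by
      funext p q
      simp only [st, W.fb _ _ hg.1, W.fb _ _ hk.1, map_mul]; ring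
    have t1 := W.tb _ hg.1
    have t2 := W.tb _ hk.1
    rw [e]
    refine ⟨W.ten _ _ hg.1 hk.1, W.ten _ _ t2 t1, φ g (φ k v) - cs g k • v,
      φ (bar k) (φ (bar g) w) - cs (bar k) (bar g) • w, ?_, ?_, ?_⟩
    · rw [map_sub, map_smul, W.mul _ _ _ hg.1 hk.1, add_sub_cancel_right]
    · rw [map_sub, map_smul, W.mul _ _ _ t2 t1, add_sub_cancel_right]
    · simp only [map_sub, LinearMap.map_smulₛₗ, LinearMap.sub_apply, LinearMap.smul_apply,
        RingHom.id_apply, W.cb _ _ hg.1 hk.1, starRingEnd_self_apply]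
      rw [hS _ _ _ hk, hS _ _ _ hg]
  | zero =>
    have z : ∀ u, Q 0 u = 0 := fun u => by simpa using W.smul 0 0 (zero_mem _) u
    rw [st_zero]
    exact ⟨zero_mem _, zero_mem _, 0, 0, by rw [z, map_zero], by rw [z, map_zero], by simp⟩
  | add a b _ _ ha hb =>
    obtain ⟨a1, a2, x, y, e1, e2, e3⟩ := ha
    obtain ⟨b1, b2, x', y', f1, f2, f3⟩ := hb
    rw [st_add]
    refine ⟨add_mem a1 b1, add_mem a2 b2, x + x', y + y', ?_, ?_, ?_⟩
    · rw [map_add, e1, f1, W.add _ a1 _ b1]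
    · rw [map_add, e2, f2, W.add _ a2 _ b2]
    · simp only [map_add, LinearMap.add_apply, e3, f3]
  | smul c a _ ha =>
    obtain ⟨a1, a2, x, y, e1, e2, e3⟩ := ha
    rw [st_smul]
    refine ⟨Submodule.smul_mem _ _ a1, Submodule.smul_mem _ _ a2, c • x, conj c • y, ?_, ?_, ?_⟩
    · rw [map_smul, e1, W.smul _ _ a1]
    · rw [map_smul, e2, W.smul _ _ a2]
    · simp only [LinearMap.map_smulₛₗ, LinearMap.smul_apply, RingHom.id_apply,
        starRingEnd_self_apply, e3]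

theorem Wk.sub (W : Wk F wt ι φ Tm Q cs) {κ κ' : Kn} (h : κ ∈ Tm) (h' : κ' ∈ Tm) (v : D) :
    Q (κ - κ') v = Q κ v - Q κ' v := by
  have e : κ - κ' = κ + (-1 : ℂ) • κ' := by rw [neg_one_smul, sub_eq_add_neg]
  rw [e, W.add _ h _ (Submodule.smul_mem _ _ h'), W.smul _ _ h', neg_one_smul, sub_eq_add_neg]

/-- **Point splitting.** -/
theorem Wk.ps (W : Wk F wt ι φ Tm Q cs) {B : Fld D} {κ : Fn → Kn}
    (hm : ∀ f, GF.IsTest f → κ f ∈ Tm) (hB : ∀ f v, GF.IsTest f → ι (B f v) = Q (κ f) v)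
    (hs : ∀ f, GF.IsTest f → κ (bar f) = st (κ f))
    (ha : ∀ O f, IsOpen O → In O f → AP F wt O (κ f)) : PS φ B := by
  intro O f S hO hf h1 h2 hS w v
  have c1 : ContinuousAt (fun z : D × D => S z.1 v - S w z.2) (B (bar f) w, B f v) :=
    (((h1 v).comp continuous_fst).sub ((h2 w).comp continuous_snd)).continuousAt
  rw [← sub_eq_zero]
  by_contra hne
  obtain ⟨ε, hε, h4⟩ := Metric.eventually_nhds_iff.1 (c1.eventually_ne hne)
  obtain ⟨N, C, hC⟩ := W.bd v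
  obtain ⟨N', C', hC'⟩ := W.bd w
  have hM : 0 < |C| + |C'| + 1 := by positivity
  have hδ : 0 < ε / (|C| + |C'| + 1) := div_pos hε hM
  obtain ⟨a, ha1, ha2⟩ := ha O f hO hf (max N N') _ hδ
  obtain ⟨a1, a2, x, y, e1, e2, e3⟩ := W.fr hS w v ha1
  have tf := W.tb _ hf.1
  have lt : ∀ c : ℝ, |c| ≤ |C| + |C'| → c * (ε / (|C| + |C'| + 1)) < ε := fun c hc =>
    calc c * (ε / (|C| + |C'| + 1)) < (|C| + |C'| + 1) * (ε / (|C| + |C'| + 1)) :=
          mul_lt_mul_of_pos_right (by linarith [le_abs_self c]) hδ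
      _ = ε := by field_simp
  refine h4 (y := (y, x)) ?_ (by simp only [e3, sub_self])
  rw [Prod.dist_eq, max_lt_iff, dist_comm, dist_eq_norm, dist_comm, dist_eq_norm, ← W.iso, ← W.iso,
    map_sub, map_sub, e1, e2, hB _ _ tf, hB _ _ hf.1, ← W.sub (hm _ tf) a2, ← W.sub (hm _ hf.1) a1]
  refine ⟨(hC' _ (sub_mem (hm _ tf) a2) _ hδ fun p q => ?_).trans_lt
    (lt _ (by linarith [abs_nonneg C])), (hC _ (sub_mem (hm _ hf.1) a1) _ hδ fun p q => ?_).trans_lt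
    (lt _ (by linarith [abs_nonneg C']))⟩
  · rw [hs _ hf.1]
    simp only [Pi.sub_apply, st, ← map_sub, RCLike.norm_conj]
    refine (ha2 _ _).trans ?_
    rw [W.symm]
    exact mul_le_mul_of_nonneg_left (W.anti _ _ _ _ (le_max_right _ _)) hδ.le
  · exact (ha2 _ _).trans (mul_le_mul_of_nonneg_left (W.anti _ _ _ _ (le_max_left _ _)) hδ.le)

end

end Vale.Agent.P352W.Ap
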