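import Vale.Agent.P352W.Ap.Ker
import Vale.Agent.P352W.Fk.Def

/-! # P352W, row APP, kernel half in the words of the Fock space (helper89) -/

set_option linter.all false

open scoped ComplexConjugate

namespace Vale.Agent.P352W.Ker

open Vale.Agent.P352.GF Vale.Agent.P352W.Fk
open Vale.Agent.P352.H246 (In)

noncomputable section

theorem ft_eq : Cn.ft = P352X.ft := rfl

theorem kb_of {N : ℕ} {ε : ℝ} {κ : V → V → ℂ} (hε : 0 ≤ ε) (h : ∀ p q, ‖κ p q‖ ≤ ε * wt N p q) :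
    Kb N (ε * 2 ^ N) κ := by
  intro p q
  have a := norm_nonneg p
  have b := norm_nonneg q
  have c := norm_nonneg (p + q)
  have e : rr (p + q) ^ N ≤ 2 ^ N * (1 + ‖p + q‖) ^ N := by
    rw [← mul_pow]
    exact pow_le_pow_left₀ (by unfold rr; positivity) (by unfold rr; linarith) N
  calc _ ≤ ε * wt N p q * (2 ^ N * (1 + ‖p + q‖) ^ N) :=
        mul_le_mul (h p q) e (by unfold rr; positivity) (mul_nonneg hε (wt_pos N p q).le)
    _ = ε * 2 ^ N * ((1 + ‖p‖) * (1 + ‖q‖)) ^ 2 := by unfold wt; field_simp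
    _ ≤ _ := by unfold rr; gcongr <;> norm_num

theorem kT_bar (m n : Ix) (f : Fn) (p q : V) : kT m n (bar f) p q = conj (kT m n f (-q) (-p)) := by
  have : tk m n (-q) (-p) = tk m n p q := by
    simp only [tk, P352X.mdot_eq, Pi.neg_apply]
    ring
  rw [kT, kT, map_mul, Complex.conj_ofReal, this, ft_eq, P352X.ft_bar,
    show -(p + q) = -q + -p by abel]

theorem apx_kT' {O : Set V} {f : Fn} (hO : IsOpen O) (hf : In O f) (m n : Ix) :
    Apx O (kT m n f) :=
  (apx_tk hO hf ((-(2 * (2 * Real.pi) ^ 3)⁻¹ : ℝ) : ℂ) m n).congr fun p q => by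
    rw [kT, Complex.ofReal_mul]
    rfl

/-- **point splitting of the symbol of the stress tensor and of its adjoint** -/
theorem apx_kT {O : Set V} {f : Fn} (hO : IsOpen O) (hf : In O f) (m n : Ix) (N : ℕ) {ε : ℝ}
    (hε : 0 < ε) : ∃ (k : ℕ) (g h : Fin k → Fn), (∀ i, In O (g i) ∧ In O (h i)) ∧
      Kb N ε (fun p q => kT m n f p q - ∑ i, Cn.ft (g i) p * Cn.ft (h i) q) ∧
      Kb N ε (fun p q => kT m n (bar f) p q - ∑ i, Cn.ft (bar (h i)) p * Cn.ft (bar (g i)) q) := by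
  have e : 0 < ε / 2 ^ N := by positivity
  obtain ⟨k, g, h, h1, h2⟩ := apx_kT' hO hf m n N _ e
  have e2 : ε / 2 ^ N * 2 ^ N = ε := by field_simp
  refine ⟨k, g, h, h1, e2 ▸ kb_of e.le h2, e2 ▸ kb_of e.le fun p q => ?_⟩
  rw [kT_bar]
  exact adj_le h2 p q

end

end Vale.Agent.P352W.Ker
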