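import Vale.Agent.P352X.Api3d
import Vale.Agent.P352X.Api2b
import Mathlib.Analysis.Calculus.BumpFunction.Normed
import Mathlib.Analysis.Calculus.BumpFunction.FiniteDimension

/-! # P352W, row APP, kernel half (helper89): point splitting of the kernels -/

set_option linter.all false

open Set Filter Topology MeasureTheory Metric
open scoped ContDiff ComplexConjugate
open Complex (I exp)

namespace Vale.Agent.P352W.Ker

open Vale.Agent.P352.GF Vale.Agent.P352X Vale.Agent.P352X.Ap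
open Vale.Agent.P352.H246 (In)

noncomputable section

/-- the weight -/
def wt (N : ℕ) (p q : V) : ℝ := (1 + ‖p‖) ^ 2 * (1 + ‖q‖) ^ 2 / (1 + ‖p + q‖) ^ N

/-- kernels that are limits of finite sums of products with supports in `O` -/
def Apx (O : Set V) (κ : V → V → ℂ) : Prop := ∀ (N : ℕ) (ε : ℝ), 0 < ε →
  ∃ (n : ℕ) (g h : Fin n → Fn), (∀ i, In O (g i) ∧ In O (h i)) ∧
    ∀ p q, ‖κ p q - ∑ i, ft (g i) p * ft (h i) q‖ ≤ ε * wt N p q

theorem wt_pos (N : ℕ) (p q : V) : 0 < wt N p q := by unfold wt; positivity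

theorem wt_neg (N : ℕ) (p q : V) : wt N (-q) (-p) = wt N p q := by
  unfold wt
  rw [show -q + -p = -(p + q) by abel, norm_neg, norm_neg, norm_neg, mul_comm ((1 + ‖q‖) ^ 2)]

theorem wt_comm (N : ℕ) (p q : V) : wt N q p = wt N p q := by
  unfold wt
  rw [add_comm q p, mul_comm ((1 + ‖q‖) ^ 2)]

variable {O : Set V} {κ κ' : V → V → ℂ} {f : Fn}

theorem apx_of (h : ∀ (N : ℕ) (ε : ℝ), 0 < ε → ∃ (ι : Type) (_ : Fintype ι) (g h : ι → Fn),
    (∀ i, In O (g i) ∧ In O (h i)) ∧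
      ∀ p q, ‖κ p q - ∑ i, ft (g i) p * ft (h i) q‖ ≤ ε * wt N p q) : Apx O κ := by
  intro N ε hε
  obtain ⟨ι, _, g, k, h1, h2⟩ := h N ε hε
  let e := (Fintype.equivFin ι).symm
  refine ⟨_, fun i => g (e i), fun i => k (e i), fun i => h1 _, fun p q => ?_⟩
  rw [e.sum_comp fun i => ft (g i) p * ft (k i) q]
  exact h2 p q

theorem Apx.zero : Apx O fun _ _ => 0 := fun N ε hε =>
  ⟨0, Fin.elim0, Fin.elim0, fun i => i.elim0, fun p q => by
    simpa using (mul_pos hε (wt_pos N p q)).le⟩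

theorem Apx.add (a : Apx O κ) (b : Apx O κ') : Apx O fun p q => κ p q + κ' p q := by
  refine apx_of fun N ε hε => ?_
  obtain ⟨n, g, h, h1, h2⟩ := a N (ε / 2) (half_pos hε)
  obtain ⟨n', g', h', h1', h2'⟩ := b N (ε / 2) (half_pos hε)
  refine ⟨Fin n ⊕ Fin n', inferInstance, Sum.elim g g', Sum.elim h h', ?_, fun p q => ?_⟩
  · rintro (i | i)
    exacts [h1 i, h1' i]
  · simp only [Fintype.sum_sum_type, Sum.elim_inl, Sum.elim_inr]
    rw [add_sub_add_comm]
    exact (norm_add_le _ _).trans (by linarith [h2 p q, h2' p q])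

theorem Apx.smul (c : ℂ) (a : Apx O κ) : Apx O fun p q => c * κ p q := by
  intro N ε hε
  obtain ⟨n, g, h, h1, h2⟩ := a N (ε / (‖c‖ + 1)) (by positivity)
  refine ⟨n, fun i x => c * g i x, h, fun i => ⟨in_cmul c (h1 i).1, (h1 i).2⟩, fun p q => ?_⟩
  simp only [ft_mul, mul_assoc, ← Finset.mul_sum, ← mul_sub, norm_mul]
  have w := wt_pos N p q
  calc _ ≤ (‖c‖ + 1) * (ε / (‖c‖ + 1) * wt N p q) :=
        mul_le_mul (by linarith) (h2 p q) (norm_nonneg _) (by positivity)
    _ = _ := by field_simp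

theorem Apx.sum {ι : Type*} (s : Finset ι) {k : ι → V → V → ℂ} (h : ∀ i ∈ s, Apx O (k i)) :
    Apx O fun p q => ∑ i ∈ s, k i p q := by
  classical
  induction s using Finset.induction_on with
  | empty => simpa using Apx.zero
  | insert a s ha ih =>
    simpa [Finset.sum_insert ha] using (h a (Finset.mem_insert_self _ _)).add
      (ih fun i hi => h i (Finset.mem_insert_of_mem hi))

theorem Apx.congr (a : Apx O κ) (e : ∀ p q, κ' p q = κ p q) : Apx O κ' := by
  rwa [show κ' = κ from funext fun p => funext (e p)]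

theorem Apx.lim (h : ∀ (N : ℕ) (ε : ℝ), 0 < ε → ∃ k, Apx O k ∧ ∀ p q, ‖κ p q - k p q‖ ≤ ε * wt N p q) :
    Apx O κ := by
  intro N ε hε
  obtain ⟨k, a, b⟩ := h N (ε / 2) (half_pos hε)
  obtain ⟨n, g, h, h1, h2⟩ := a N (ε / 2) (half_pos hε)
  refine ⟨n, g, h, h1, fun p q => ?_⟩
  exact (norm_sub_le_norm_sub_add_norm_sub _ (k p q) _).trans (by linarith [b p q, h2 p q])

theorem exp_lip (k x y : V) :
    ‖exp (I * mdot k x) - exp (I * mdot k y)‖ ≤ 4 * ‖k‖ * ‖x - y‖ := by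
  have e : exp (I * mdot k x) - exp (I * mdot k y) =
      exp (I * mdot k y) * (exp (I * (mdot k (x - y) : ℝ)) - 1) := by
    rw [mul_sub, mul_one, ← Complex.exp_add, ← mul_add, ← Complex.ofReal_add]
    congr 4
    simp only [mdot_eq, Pi.sub_apply]
    ring
  rw [e, norm_mul, Complex.norm_exp_I_mul_ofReal, one_mul]
  exact Real.norm_exp_I_mul_ofReal_sub_one_le.trans (abs_mdot_le _ _)

theorem int_exp (hf : Integrable f) (k : V) : Integrable fun x => f x * exp (I * mdot k x) :=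
  hf.mul_bdd (c := 1) (by fun_prop : Continuous fun x : V => exp (I * mdot k x)).aestronglyMeasurable
    (ae_of_all _ fun x => (Complex.norm_exp_I_mul_ofReal _).le)

/-- one piece -/
theorem piece (hf : Integrable f) {y : V} {δ : ℝ} (hs : ∀ x, f x ≠ 0 → ‖x - y‖ ≤ δ) (k : V) :
    ‖ft f k - (∫ x, f x) * exp (I * mdot k y)‖ ≤ 4 * ‖k‖ * δ * ∫ x, ‖f x‖ := by
  rw [ft, ← integral_mul_const, ← integral_sub (int_exp hf k) (hf.mul_const _),
    ← integral_const_mul]
  refine norm_integral_le_of_norm_le (hf.norm.const_mul _) (ae_of_all _ fun x => ?_)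
  by_cases h : f x = 0
  · simp [h]
  · rw [← mul_sub, norm_mul, mul_comm]
    exact mul_le_mul_of_nonneg_right ((exp_lip k x y).trans
      (mul_le_mul_of_nonneg_left (hs x h) (by positivity))) (norm_nonneg _)

/-- Riemann sums -/
theorem riem (δ : ℝ) (t : Finset V) : ∀ f : Fn, Integrable f →
    (∀ x, f x ≠ 0 → ∃ y ∈ t, x ∈ ball y δ) → ∃ c : V → ℂ, ∀ k,
      ‖ft f k - ∑ y ∈ t, c y * exp (I * mdot k y)‖ ≤ 4 * ‖k‖ * δ * ∫ x, ‖f x‖ := by
  classical
  induction t using Finset.induction_on with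
  | empty =>
    intro f _ hs
    have : f = 0 := funext fun x => by_contra fun h => by simpa using hs x h
    exact ⟨0, fun k => by simp [this, ft]⟩
  | insert y t hy ih =>
    intro f hf hs
    have m : MeasurableSet (ball y δ) := measurableSet_ball
    have i1 := hf.indicator m
    have i2 := hf.indicator m.compl
    obtain ⟨c, hc⟩ := ih _ i2 fun x hx => by
      obtain ⟨h1, h2⟩ := indicator_apply_ne_zero.1 hx
      obtain ⟨z, hz, h3⟩ := hs x h2
      rcases Finset.mem_insert.1 hz with rfl | hz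
      exacts [absurd h3 h1, ⟨z, hz, h3⟩]
    refine ⟨Function.update c y (∫ x, (ball y δ).indicator f x), fun k => ?_⟩
    have p1 := piece i1 (y := y) (δ := δ) (fun x hx => by
      have := (indicator_apply_ne_zero.1 hx).1
      rw [mem_ball, dist_eq_norm] at this
      exact this.le) k
    have e1 : ft f k = ft ((ball y δ).indicator f) k + ft ((ball y δ)ᶜ.indicator f) k := by
      simp only [ft]
      rw [← integral_add (int_exp i1 k) (int_exp i2 k)]
      congr 1 with x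
      rw [← add_mul, indicator_self_add_compl_apply]
    have e2 : ∫ x, ‖f x‖ = (∫ x, ‖(ball y δ).indicator f x‖) + ∫ x, ‖(ball y δ)ᶜ.indicator f x‖ := by
      rw [← integral_add i1.norm i2.norm]
      congr 1 with x
      by_cases h : x ∈ ball y δ <;> simp [indicator, h]
    rw [Finset.sum_insert hy, Function.update_self, Finset.sum_congr rfl fun z hz => by
      rw [Function.update_of_ne (ne_of_mem_of_not_mem hz hy)], e1, e2, add_sub_add_comm, mul_add]
    exact (norm_add_le _ _).trans (add_le_add p1 (hc k))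

theorem decay (hf : IsTest f) (N : ℕ) : ∃ C, 0 < C ∧ ∀ p, ‖ft f p‖ ≤ C / (1 + ‖p‖) ^ N := by
  obtain ⟨g, rfl⟩ := hf
  obtain ⟨m, C, _, h⟩ := ft_decay N
  refine ⟨|C * sn m g| + 1, by positivity, fun p => ?_⟩
  rw [le_div_iff₀ (by positivity), mul_comm]
  exact (h g p).trans ((le_abs_self _).trans (by linarith))

theorem in_tr {g : Fn} {r : ℝ} {y : V} (hg : In (closedBall 0 r) g) (h : closedBall y r ⊆ O) :
    In O fun x => g (x - y) := by
  have s : tsupport (fun x => g (x - y)) ⊆ closedBall y r :=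
    closure_minimal (fun x hx => by
      have := hg.2.2 (subset_tsupport g hx)
      rwa [mem_closedBall, dist_zero_right, ← dist_eq_norm] at this) isClosed_closedBall
  refine ⟨?_, (isCompact_closedBall y r).of_isClosed_subset (isClosed_tsupport _) s, s.trans h⟩
  simpa only [sub_eq_add_neg] using test_tsl hg.1 (-y)

theorem tri (p q : V) (N : ℕ) : (1 + ‖p + q‖) ^ N ≤ (1 + ‖p‖) ^ N * (1 + ‖q‖) ^ N := by
  rw [← mul_pow]
  refine pow_le_pow_left₀ (by positivity) ?_ N
  nlinarith [norm_add_le p q, mul_nonneg (norm_nonneg p) (norm_nonneg q)]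

/-- smeared products -/
theorem apx_mul {g h : Fn} {r : ℝ} (hf : In univ f) (hg : In (closedBall 0 r) g)
    (hh : In (closedBall 0 r) h) (hO : ∀ y ∈ tsupport f, closedBall y r ⊆ O) :
    Apx O fun p q => ft f (p + q) * (ft g p * ft h q) := by
  refine apx_of fun N ε hε => ?_
  obtain ⟨C, C0, hC⟩ := decay hg.1 (N + 1)
  obtain ⟨C', C0', hC'⟩ := decay hh.1 (N + 1)
  have J0 : 0 ≤ ∫ x, ‖f x‖ := integral_nonneg fun _ => norm_nonneg _
  set J := ∫ x, ‖f x‖
  set δ := ε / (4 * (J + 1) * (C * C')) with hδ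
  have δ0 : 0 < δ := by positivity
  obtain ⟨t, t1, t2, t3⟩ := finite_cover_balls_of_compact hf.2.1.isCompact δ0
  obtain ⟨c, hc⟩ := riem δ t2.toFinset f (test_int hf.1) fun x hx => by
    obtain ⟨y, hy, h⟩ := mem_iUnion₂.1 (t3 (subset_tsupport f hx))
    exact ⟨y, t2.mem_toFinset.2 hy, h⟩
  refine ⟨t2.toFinset, inferInstance, fun y x => c y * g (x - y), fun y x => h (x - y), fun y =>
    have o := hO y.1 (t1 (t2.mem_toFinset.1 y.2))
    ⟨in_cmul _ (in_tr hg o), in_tr hh o⟩, fun p q => ?_⟩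
  have e : ∑ y : t2.toFinset, ft (fun x => c y * g (x - y)) p * ft (fun x => h (x - y)) q =
      (∑ y ∈ t2.toFinset, c y * exp (I * mdot (p + q) y)) * (ft g p * ft h q) := by
    rw [Finset.sum_mul, ← Finset.sum_coe_sort t2.toFinset]
    refine Finset.sum_congr rfl fun y _ => ?_
    rw [ft_mul, ft_tsl', ft_tsl', show mdot (p + q) y = mdot p y + mdot q y by
      simp only [mdot_eq, Pi.add_apply]; ring, Complex.ofReal_add, mul_add, Complex.exp_add]
    ring
  rw [e, ← sub_mul, norm_mul, norm_mul]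
  have a1 : ‖ft g p‖ * ‖ft h q‖ ≤ C * C' / (1 + ‖p + q‖) ^ (N + 1) :=
    (mul_le_mul (hC p) (hC' q) (norm_nonneg _) (by positivity)).trans (by
      rw [div_mul_div_comm]
      exact div_le_div_of_nonneg_left (by positivity) (by positivity) (tri p q _))
  have a2 : 4 * ‖p + q‖ * δ * J ≤ 4 * (1 + ‖p + q‖) * δ * (J + 1) := by gcongr <;> linarith
  have a3 : 1 ≤ (1 + ‖p‖) ^ 2 * (1 + ‖q‖) ^ 2 := one_le_mul_of_one_le_of_one_le
    (one_le_pow₀ (by linarith [norm_nonneg p])) (one_le_pow₀ (by linarith [norm_nonneg q]))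
  calc _ ≤ 4 * (1 + ‖p + q‖) * δ * (J + 1) * (C * C' / (1 + ‖p + q‖) ^ (N + 1)) :=
        mul_le_mul ((hc _).trans a2) a1 (by positivity) (by positivity)
    _ = ε * (1 / (1 + ‖p + q‖) ^ N) := by rw [hδ, pow_succ]; field_simp
    _ ≤ _ := by unfold wt; gcongr

/-- approximate identities -/
theorem bump {r : ℝ} (hr : 0 < r) : ∃ ρ : Fn, In (closedBall 0 r) ρ ∧ (∀ p, ‖ft ρ p‖ ≤ 1) ∧
    ∀ p, ‖1 - ft ρ p‖ ≤ 4 * ‖p‖ * r := by
  let b : ContDiffBump (0 : V) := ⟨r / 2, r, half_pos hr, half_lt_self hr⟩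
  let ρ : Fn := fun x => (b.normed volume x : ℝ)
  have s : tsupport ρ ⊆ closedBall 0 r := by
    rw [← show tsupport (b.normed volume) = closedBall 0 r from b.tsupport_normed_eq]
    exact closure_mono fun x hx h => hx (by simp [ρ, h])
  have c : HasCompactSupport ρ :=
    (isCompact_closedBall 0 r).of_isClosed_subset (isClosed_tsupport _) s
  have d : ContDiff ℝ ∞ ρ := Complex.ofRealCLM.contDiff.comp b.contDiff_normed
  have t : IsTest ρ := ⟨c.toSchwartzMap d, rfl⟩
  have n1 : ∫ x, ‖ρ x‖ = 1 := by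
    rw [← b.integral_normed (μ := volume)]
    congr 1 with x
    simp [ρ, abs_of_nonneg (b.nonneg_normed x)]
  have n2 : ∫ x, ρ x = 1 := by
    simp only [ρ]
    rw [integral_complex_ofReal, b.integral_normed]
    rfl
  refine ⟨ρ, ⟨t, c, s⟩, fun p => n1 ▸ norm_ft_le ρ p, fun p => ?_⟩
  have := piece (test_int t) (y := 0) (δ := r) (fun x hx => by
    simpa using s (subset_tsupport ρ hx)) p
  rw [n1, n2] at this
  rw [norm_sub_rev]
  simpa using this

theorem ft_mom {ρ : Fn} (h : IsTest ρ) (m : Ix) (p : V) :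
    ft (fun x => (I * eta m) * pd m ρ x) p = p m * ft ρ p := by
  rw [ft_mul, ft_pd h]
  have : (eta m : ℂ) * eta m = 1 := by exact_mod_cast eta_sq m
  push_cast
  linear_combination (p m * ft ρ p) * this - (eta m * eta m * p m * ft ρ p) * Complex.I_sq

/-- kernels `a p * b q * ft f (p + q)` with `a`, `b` of degree at most one -/
theorem apx_lin (hO : IsOpen O) (hf : In O f) {a b : V → ℂ} (ha : ∀ p, ‖a p‖ ≤ 1 + ‖p‖)
    (hb : ∀ p, ‖b p‖ ≤ 1 + ‖p‖)
    (ha' : ∀ W ρ, In W ρ → ∃ g, In W g ∧ ∀ p, ft g p = a p * ft ρ p)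
    (hb' : ∀ W ρ, In W ρ → ∃ g, In W g ∧ ∀ p, ft g p = b p * ft ρ p) :
    Apx O fun p q => a p * b q * ft f (p + q) := by
  refine Apx.lim fun N ε hε => ?_
  obtain ⟨δ, δ0, hδ⟩ := hf.2.1.isCompact.exists_cthickening_subset_open hO hf.2.2
  obtain ⟨C, C0, hC⟩ := decay hf.1 N
  set r := min δ (ε / (4 * C)) with hr
  have r0 : 0 < r := lt_min δ0 (by positivity)
  obtain ⟨ρ, h1, h2, h3⟩ := bump r0
  obtain ⟨g, g1, g2⟩ := ha' _ ρ h1
  obtain ⟨h, k1, k2⟩ := hb' _ ρ h1
  refine ⟨_, apx_mul ⟨hf.1, hf.2.1, subset_univ _⟩ g1 k1 fun y hy =>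
    (closedBall_subset_closedBall (min_le_left _ _)).trans
      ((closedBall_subset_cthickening hy δ).trans hδ), fun p q => ?_⟩
  have e : a p * b q * ft f (p + q) - ft f (p + q) * (ft g p * ft h q) =
      a p * b q * ft f (p + q) * ((1 - ft ρ p) + ft ρ p * (1 - ft ρ q)) := by
    rw [g2, k2]; ring
  have p0 := norm_nonneg p
  have q0 := norm_nonneg q
  have a1 : ‖(1 - ft ρ p) + ft ρ p * (1 - ft ρ q)‖ ≤ 4 * r * ((1 + ‖p‖) * (1 + ‖q‖)) := by
    refine (norm_add_le _ _).trans ?_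
    rw [norm_mul]
    have := mul_le_mul (h2 p) (h3 q) (norm_nonneg _) zero_le_one
    nlinarith [h3 p, mul_nonneg p0 q0, mul_nonneg r0.le (mul_nonneg p0 q0)]
  have a2 : r * (4 * C) ≤ ε := (le_div_iff₀ (by positivity)).1 (min_le_right _ _)
  rw [e, norm_mul, norm_mul, norm_mul]
  calc _ ≤ (1 + ‖p‖) * (1 + ‖q‖) * (C / (1 + ‖p + q‖) ^ N) * (4 * r * ((1 + ‖p‖) * (1 + ‖q‖))) := by
        gcongr
        exacts [ha p, hb q, hC _]
    _ = r * (4 * C) * wt N p q := by unfold wt; field_simp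
    _ ≤ _ := mul_le_mul_of_nonneg_right a2 (wt_pos N p q).le

theorem nm_le (m : Ix) (p : V) : ‖((p m : ℝ) : ℂ)‖ ≤ 1 + ‖p‖ := by
  rw [Complex.norm_real]
  linarith [norm_le_pi_norm p m]

theorem ex_mom (m : Ix) (W : Set V) (ρ : Fn) (h : In W ρ) :
    ∃ g, In W g ∧ ∀ p, ft g p = p m * ft ρ p :=
  ⟨_, in_cmul _ (in_pd m h), ft_mom h.1 m⟩

/-- **the monomials** -/
theorem apx_mono (hO : IsOpen O) (hf : In O f) (m n : Ix) :
    Apx O fun p q => (p m : ℂ) * q n * ft f (p + q) :=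
  apx_lin hO hf (nm_le m) (nm_le n) (ex_mom m) (ex_mom n)

/-- the Wick square -/
theorem apx_sq (hO : IsOpen O) (hf : In O f) : Apx O fun p q => ft f (p + q) :=
  have o (p : V) : ‖(1 : ℂ)‖ ≤ 1 + ‖p‖ := by simp
  have e (W : Set V) (ρ : Fn) (h : In W ρ) : ∃ g, In W g ∧ ∀ p, ft g p = 1 * ft ρ p :=
    ⟨ρ, h, fun p => (one_mul _).symm⟩
  (apx_lin hO hf (a := fun _ => 1) (b := fun _ => 1) o o e e).congr fun p q => by simp

/-- all bilinear forms -/
theorem apx_bil (hO : IsOpen O) (hf : In O f) (c : Ix → Ix → ℂ) :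
    Apx O fun p q => (∑ k, ∑ l, c k l * p k * q l) * ft f (p + q) :=
  (Apx.sum Finset.univ fun k _ => Apx.sum Finset.univ fun l _ =>
    (apx_mono hO hf k l).smul (c k l)).congr fun p q => by
      simp only [Finset.sum_mul, mul_assoc]

/-- **the kernel of the stress tensor** -/
theorem apx_tk (hO : IsOpen O) (hf : In O f) (c : ℂ) (m n : Ix) : Apx O fun p q =>
    c * ((p m * q n + p n * q m - bas m (eta m) n * mdot p q : ℝ) : ℂ) * ft f (p + q) :=
  ((((apx_mono hO hf m n).add (apx_mono hO hf n m)).add ((Apx.sum Finset.univ fun k _ =>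
    (apx_mono hO hf k k).smul (eta k)).smul (-(bas m (eta m) n : ℝ)))).smul c).congr fun p q => by
      simp only [mdot, Fin.sum_univ_four]
      push_cast
      ring

/-- the adjoint kernels -/
theorem adj_le {n : ℕ} {g h : Fin n → Fn} {N : ℕ} {ε : ℝ}
    (a : ∀ p q, ‖κ p q - ∑ i, ft (g i) p * ft (h i) q‖ ≤ ε * wt N p q) (p q : V) :
    ‖conj (κ (-q) (-p)) - ∑ i, ft (bar (h i)) p * ft (bar (g i)) q‖ ≤ ε * wt N p q := by
  rw [← wt_neg N p q, ← Complex.norm_conj]
  simpa only [ft_bar, map_sub, map_sum, map_mul, Complex.conj_conj, mul_comm] using a (-q) (-p)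

end

end Vale.Agent.P352W.Ker
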