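import Vale.Agent.P352W.Ap.Frm
import Vale.Agent.P352W.Ap.Ker
import Vale.Agent.P352W.Fk.Def

/-!
# P352W: point splitting of the canonical stress tensor, from the rows of the Fock space (helper88)
-/

set_option autoImplicit false

open MeasureTheory
open scoped ComplexConjugate

namespace Vale.Agent.P352W.Ap

open Vale.Agent.P352.GF Vale.Agent.P352W.Fk Vale.Agent.P352W.Cn
open Vale.Agent.P352.H246 (In)

noncomputable section

theorem rr_pos (p : V) : 0 < rr p := by unfold rr; positivity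

/-- good kernels -/
def KS : Submodule ℂ Kn where
  carrier := {κ | Ks κ}
  zero_mem' := ⟨measurable_const, fun N => ⟨0, fun p q => by simp⟩⟩
  add_mem' := fun {a b} ha hb => ⟨ha.1.add hb.1, fun N => by
    obtain ⟨c, hc⟩ := ha.2 N
    obtain ⟨d, hd⟩ := hb.2 N
    refine ⟨c + d, fun p q => ?_⟩
    have := mul_le_mul_of_nonneg_right (norm_add_le (a p q) (b p q)) (pow_pos (rr_pos (p + q)) N).le
    simp only [Pi.add_apply]
    linarith [hc p q, hd p q]⟩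
  smul_mem' := fun c a ha => ⟨ha.1.const_mul c, fun N => by
    obtain ⟨d, hd⟩ := ha.2 N
    refine ⟨‖c‖ * d, fun p q => ?_⟩
    simp only [Pi.smul_apply, smul_eq_mul, norm_mul, mul_assoc]
    exact mul_le_mul_of_nonneg_left (hd p q) (norm_nonneg _)⟩

theorem ks_ten {g h : V → ℂ} (hg : Hs g) (hh : Hs h) : Ks fun p q => g p * h q :=
  ⟨(hg.1.comp measurable_fst).mul (hh.1.comp measurable_snd), fun N => by
    obtain ⟨c, hc⟩ := hg.2 N
    obtain ⟨d, hd⟩ := hh.2 N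
    refine ⟨c * d, fun p q => ?_⟩
    have p0 := norm_nonneg p
    have q0 := norm_nonneg q
    have a1 : rr (p + q) ≤ rr p * rr q := by
      unfold rr; nlinarith [norm_add_le p q, mul_nonneg p0 q0]
    have a2 : 1 ≤ rr p * rr q := by unfold rr; nlinarith [mul_nonneg p0 q0]
    have c0 : 0 ≤ c := le_trans (mul_nonneg (norm_nonneg _) (pow_pos (rr_pos p) N).le) (hc p)
    have d0 : 0 ≤ ‖h q‖ * rr q ^ N := mul_nonneg (norm_nonneg _) (pow_pos (rr_pos q) N).le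
    calc _ ≤ ‖g p * h q‖ * (rr p * rr q) ^ N :=
          mul_le_mul_of_nonneg_left (pow_le_pow_left₀ (rr_pos _).le a1 N) (norm_nonneg _)
      _ = ‖g p‖ * rr p ^ N * (‖h q‖ * rr q ^ N) := by rw [norm_mul]; ring
      _ ≤ c * d := mul_le_mul (hc p) (hd q) d0 c0
      _ ≤ _ := le_mul_of_one_le_right (mul_nonneg c0 (d0.trans (hd q))) (one_le_pow₀ a2)⟩

theorem rr_le (p : V) (N : ℕ) : rr p ^ N ≤ 2 ^ N * (1 + ‖p‖) ^ N := by
  rw [← mul_pow]
  exact pow_le_pow_left₀ (rr_pos p).le (by unfold rr; linarith [norm_nonneg p]) N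

theorem hs_ft {f : Fn} (hf : IsTest f) : Hs (ft f) := by
  refine ⟨?_, fun N => ?_⟩
  · obtain ⟨g, rfl⟩ := hf
    have e : ft (ev g) = ev (P352X.ftS g) := (P352X.ev_ftS g).symm
    rw [e]
    exact (P352X.ftS g).continuous.measurable
  · obtain ⟨C, C0, h⟩ := Ker.decay hf N
    refine ⟨C * 2 ^ N, fun p => (mul_le_mul (h p) (rr_le p N) (pow_pos (rr_pos p) N).le
      (by positivity)).trans_eq ?_⟩
    field_simp

theorem kb_wt {κ : Kn} {N : ℕ} {ε : ℝ} (hε : 0 < ε) (h : ∀ p q, ‖κ p q‖ ≤ ε * Ker.wt N p q) :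
    Kb N (2 ^ N * ε) κ := fun p q => by
  have w := Ker.wt_pos N p q
  refine (mul_le_mul (h p q) (rr_le _ N) (pow_pos (rr_pos _) N).le (by positivity)).trans ?_
  have e : ε * Ker.wt N p q * (2 ^ N * (1 + ‖p + q‖) ^ N) =
      2 ^ N * ε * ((1 + ‖p‖) * (1 + ‖q‖)) ^ 2 := by unfold Ker.wt; field_simp
  rw [e]
  unfold rr
  gcongr <;> norm_num

theorem kT_bar (m n : Ix) (f : Fn) : kT m n (bar f) = st (kT m n f) := by
  funext p q
  have e : tk m n (-q) (-p) = tk m n p q := by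
    simp only [tk, Cn.mdot_eq, Pi.neg_apply]; simp only [Fin.sum_univ_three]; ring
  have e' : ft (bar f) (p + q) = conj (ft f (-q + -p)) := by
    rw [← neg_add_rev]; exact P352X.ft_bar f _
  simp only [st, kT, e, e', map_mul, Complex.conj_ofReal]

theorem ap_kT (m n : Ix) {O : Set V} {f : Fn} (hO : IsOpen O) (hf : In O f) :
    AP ft Ker.wt O (kT m n f) := by
  refine AP.of_sum fun N ε hε => ?_
  obtain ⟨k, g, h, h1, h2⟩ := Ker.apx_tk hO hf ((-(2 * (2 * Real.pi) ^ 3)⁻¹ : ℝ) : ℂ) m n N ε hε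
  refine ⟨Fin k, Finset.univ, fun _ => 1, g, h, fun i _ => h1 i, fun p q => ?_⟩
  simp only [one_mul, kT, tk, Complex.ofReal_mul _ (_ - _)]
  exact h2 p q

/-- the rows of the Fock space which are used -/
structure Hy : Prop where
  wd : ∀ v : D, Wd (rep v)
  tl : ∀ v : D, toL (rep v) = v.1
  nice : ∀ ψ, Wd ψ → Nice ψ
  phm : ∀ f ψ, IsTest f → Wd ψ → Ph f (Fk.mk ψ) = Fk.mk (ph (ft f) ψ)
  add : ∀ ψ χ, Nice ψ → Nice χ → toL (ψ + χ) = toL ψ + toL χ
  smul : ∀ (c : ℂ) ψ, Nice ψ → toL (c • ψ) = c • toL ψ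
  nrm : ∃ K : ℝ, ∀ ψ C, Nice ψ → Bd 2 C ψ → ‖toL ψ‖ ≤ K * C
  bdq : ∃ (M : ℕ) (K : ℝ), ∀ c C κ ψ, Ks κ → Nice ψ → Kb M c κ → Bd M C ψ →
    Bd 2 (K * c * C) (qq κ ψ)
  nq : ∀ κ ψ, Ks κ → Nice ψ → Nice (qq κ ψ)
  qa : ∀ κ κ' ψ, Ks κ → Ks κ' → Nice ψ → qq (κ + κ') ψ = qq κ ψ + qq κ' ψ
  qs : ∀ (c : ℂ) κ ψ, Ks κ → Nice ψ → qq (c • κ) ψ = c • qq κ ψ
  pp : ∀ h h' ψ, Hs h → Hs h' → Nice ψ →
    ph h (ph h' ψ) = qq (fun p q => h p * h' q) ψ + (∫ q, h (-q) * h' q ∂Om) • ψ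
  kt : ∀ m n f, IsTest f → Ks (kT m n f)

theorem mk_val {ψ : Wf} (h : Wd ψ) : (Fk.mk ψ).1 = toL ψ := by rw [Fk.mk, dif_pos h]

theorem Hy.wk (H : Hy) : Wk ft Ker.wt D0.subtype Ph KS (fun κ v => toL (qq κ (rep v)))
    fun g h => ∫ q, ft g (-q) * ft h q ∂Om where
  iso _ := rfl
  fb g p _ := P352X.ft_bar g p
  tb _ h := P352X.Ap.test_bar h
  cb g h _ _ := by
    rw [← integral_conj]
    refine integral_congr_ae (.of_forall fun q => ?_)
    have e1 : ft (bar h) (-q) = conj (ft h q) := P352X.ft_bar' h q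
    have e2 : ft (bar g) q = conj (ft g (-q)) := P352X.ft_bar g q
    simp only [e1, e2, map_mul, mul_comm]
  anti N N' p q h := div_le_div_of_nonneg_left (by positivity) (by positivity)
    (pow_le_pow_right₀ (by linarith [norm_nonneg (p + q)]) h)
  symm := Ker.wt_neg
  add κ h κ' h' v := by
    have n := H.nice _ (H.wd v)
    rw [H.qa _ _ _ h h' n, H.add _ _ (H.nq _ _ h n) (H.nq _ _ h' n)]
  smul c κ h v := by
    have n := H.nice _ (H.wd v)
    rw [H.qs _ _ _ h n, H.smul _ _ (H.nq _ _ h n)]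
  ten g h hg hh := ks_ten (hs_ft hg) (hs_ft hh)
  mul g h v hg hh := by
    have w := H.wd v
    have n := H.nice _ w
    have e : Ph h v = Fk.mk (ph (ft h) (rep v)) := rfl
    rw [e, H.phm _ _ hg (w.ph hh), Submodule.subtype_apply, mk_val ((w.ph hh).ph hg),
      H.pp _ _ _ (hs_ft hg) (hs_ft hh) n, H.add _ _ (H.nq _ _ (ks_ten (hs_ft hg) (hs_ft hh)) n)
        (H.nice _ (w.smul _)), H.smul _ _ n, H.tl, Submodule.subtype_apply]
  bd v := by
    have n := H.nice _ (H.wd v)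
    obtain ⟨K, hK⟩ := H.nrm
    obtain ⟨M, K', hM⟩ := H.bdq
    obtain ⟨C, hC⟩ := n.2 M
    refine ⟨M, K * (K' * 2 ^ M * C), fun κ h ε hε b =>
      (hK _ _ (H.nq _ _ h n) (hM _ _ _ _ h n (kb_wt hε b) hC)).trans_eq (by ring)⟩

/-- **The stress tensor is generated locally by the field.** -/
theorem Hy.ps (H : Hy) (m n : Ix) : PS Ph (Fk.Tm m n) :=
  H.wk.ps (κ := kT m n) (H.kt m n) (fun _ v hf => mk_val ((H.wd v).qq m n hf))
    (fun f _ => kT_bar m n f) fun _ _ hO hf => ap_kT m n hO hf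

end

end Vale.Agent.P352W.Ap
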