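import Vale.Agent.P352W.Ap.Ps0
import Vale.Agent.P352W.Fk.Bas
import Vale.Agent.P352W.Fk.Lin

/-!
# P352W: point splitting of the canonical stress tensor, from descent and normal ordering (helper88)
-/

set_option autoImplicit false

open MeasureTheory
open scoped ComplexConjugate

namespace Vale.Agent.P352W.Ap

open Vale.Agent.P352.GF Vale.Agent.P352W.Fk Vale.Agent.P352W.Cn

noncomputable section

theorem tk_le (m n : Ix) (p q : V) : |tk m n p q| ≤ 6 * (rr p * rr q) ^ 2 := by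
  have a : ∀ (x : V) (k : Ix), |x k| ≤ ‖x‖ := fun x k => norm_le_pi_norm x k
  have b : |bas m (eta m) n| ≤ 1 := by unfold bas eta; split_ifs <;> simp
  have p0 := norm_nonneg p
  have q0 := norm_nonneg q
  have c1 := mul_le_mul (a p m) (a q n) (abs_nonneg _) p0
  have c2 := mul_le_mul (a p n) (a q m) (abs_nonneg _) p0
  have c3 := mul_le_mul b (P352X.abs_mdot_le (x := p) (y := q)) (abs_nonneg _) zero_le_one
  have c4 : |tk m n p q| ≤ 6 * (‖p‖ * ‖q‖) := by
    refine (abs_sub _ _).trans ((add_le_add (abs_add_le _ _) le_rfl).trans ?_)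
    simp only [abs_mul]
    linarith
  have c5 : ‖p‖ * ‖q‖ + 1 ≤ rr p * rr q := by unfold rr; nlinarith
  nlinarith [mul_nonneg p0 q0]

theorem ks_kT (m n : Ix) {f : Fn} (hf : IsTest f) : Ks (kT m n f) := by
  refine ⟨Measurable.mul (Complex.measurable_ofReal.comp ?_)
    ((hs_ft hf).1.comp (measurable_fst.add measurable_snd)), fun N => ?_⟩
  · unfold tk mdot; fun_prop
  · obtain ⟨c, hc⟩ := (hs_ft hf).2 N
    refine ⟨|-(2 * (2 * Real.pi) ^ 3)⁻¹| * 6 * c, fun p q => ?_⟩
    have := mul_le_mul (tk_le m n p q) (hc (p + q))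
      (mul_nonneg (norm_nonneg _) (pow_pos (rr_pos _) N).le) (by positivity)
    rw [kT, norm_mul, Complex.norm_real, Real.norm_eq_abs, abs_mul, mul_assoc, mul_assoc]
    exact (mul_le_mul_of_nonneg_left this (abs_nonneg _)).trans_eq (by ring)

theorem nice_wd {ψ : Wf} (h : Wd ψ) : Nice ψ := by
  induction h with
  | vc => exact nice_vc
  | zero => exact nice_zero
  | add _ _ a b => exact a.add b
  | smul c _ a => exact a.smul c
  | ph hf _ a => exact nice_ph (hs_ft hf) a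
  | qq m n hf _ a => exact nice_qq (ks_kT m n hf) a

theorem isD (v : D) : IsD v.1 := by
  obtain ⟨v, h⟩ := v
  induction h using Submodule.span_induction with
  | mem x h => exact h
  | zero => exact ⟨0, .zero, toL_zero⟩
  | add x y _ _ a b =>
    obtain ⟨ψ, a, rfl⟩ := a
    obtain ⟨χ, b, rfl⟩ := b
    exact ⟨_, a.add b, toL_add (nice_wd a) (nice_wd b)⟩
  | smul c x _ a =>
    obtain ⟨ψ, a, rfl⟩ := a
    exact ⟨_, a.smul c, toL_smul c (nice_wd a)⟩

theorem rep_spec (v : D) : Wd (rep v) ∧ toL (rep v) = v.1 := by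
  rw [rep, dif_pos (isD v)]
  exact (isD v).choose_spec

theorem hy_of (phm : ∀ f ψ, IsTest f → Wd ψ → Ph f (Fk.mk ψ) = Fk.mk (ph (ft f) ψ))
    (pp : ∀ h h' ψ, Hs h → Hs h' → Nice ψ →
      ph h (ph h' ψ) = qq (fun p q => h p * h' q) ψ + (∫ q, h (-q) * h' q ∂Om) • ψ) : Hy where
  wd v := (rep_spec v).1
  tl v := (rep_spec v).2
  nice _ := nice_wd
  phm := phm
  add _ _ := toL_add
  smul c _ := toL_smul c
  nrm := norm_toL.imp fun _ h ψ C n => h.2 ψ C n.1
  bdq := ⟨_, _, fun _ _ _ _ _ _ => bd_qq' (N := 2)⟩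
  nq _ _ := nice_qq
  qa _ _ _ := add_qq
  qs c κ ψ _ _ := mul_qq c κ ψ
  pp := pp
  kt m n _ := ks_kT m n

end

end Vale.Agent.P352W.Ap
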